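import Vale.Agent.P092TO.Max
import Mathlib.LinearAlgebra.Matrix.Charpoly.Eigs
import Mathlib.LinearAlgebra.Matrix.ToLinearEquiv

/-!
P092, group side (helper11): the homomorphism from the centraliser of the torus to the real span of the
cocharacters.
-/

set_option linter.all false

open Module Matrix Filter Topology Vale.Agent.P092AG
open scoped Matrix.Norms.Elementwise Classical

namespace Vale.Agent.P092TO

variable {n : ℕ} {k : Type} [NontriviallyNormedField k] {G : Subgroup (GL (Fin n) k)}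
  {z w : GL (Fin n) k} {i j : Fin n}

/-- the indices with the weight of `i` -/
abbrev Bk (G : Subgroup (GL (Fin n) k)) (i : Fin n) : Type := {j // Sim G i j}

/-- the diagonal block of the weight of `i` -/
def bk (G : Subgroup (GL (Fin n) k)) (i : Fin n) (x : Mt n k) : Matrix (Bk G i) (Bk G i) k :=
  of fun a b => x a b

/-- the logarithm of the common norm of the eigenvalues on the weight space of `i` -/
noncomputable def nu (G : Subgroup (GL (Fin n) k)) (z : GL (Fin n) k) (i : Fin n) : ℝ :=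
  Real.log ‖(bk G i z).det‖ / Fintype.card (Bk G i)

theorem sim_refl (G : Subgroup (GL (Fin n) k)) (i : Fin n) : Sim G i i := fun _ _ => rfl

instance : Nonempty (Bk G i) := ⟨⟨i, sim_refl G i⟩⟩

theorem card_bk : (Fintype.card (Bk G i) : ℝ) ≠ 0 := Nat.cast_ne_zero.2 Fintype.card_ne_zero

theorem sim_of_ne (hz : z ∈ Zc G) (h : (z : Mt n k) i j ≠ 0) : Sim G i j := fun y hy =>
  not_not.1 fun e => h ((mem_Zc.1 hz).2 y hy i j e)

theorem sum_bk {R : Type} [AddCommMonoid R] (f : Fin n → R) (h : ∀ j, f j ≠ 0 → Sim G i j) :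
    ∑ j, f j = ∑ j : Bk G i, f j := by
  rw [← Finset.sum_subtype (Finset.univ.filter (Sim G i)) (by simp), Finset.sum_filter_of_ne]
  exact fun j _ => h j

theorem bk_mul (hz : z ∈ Zc G) (x : Mt n k) : bk G i (z * x) = bk G i z * bk G i x := by
  ext a b
  exact sum_bk _ fun j hj y hy => (a.2 y hy).trans (sim_of_ne hz (left_ne_zero_of_mul hj) y hy)

theorem bk_one : bk G i 1 = 1 := by
  ext a b; simp [bk, one_apply, Subtype.ext_iff]

theorem det_bk_ne (hz : z ∈ Zc G) : (bk G i z).det ≠ 0 := by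
  have := congrArg det (bk_mul (i := i) hz z⁻¹.val)
  rw [Units.mul_inv, bk_one, det_one, det_mul] at this
  exact left_ne_zero_of_mul_eq_one this.symm

theorem nu_mul (hz : z ∈ Zc G) (hw : w ∈ Zc G) : nu G (z * w) = nu G z + nu G w := by
  funext i
  simp only [nu, Units.val_mul, bk_mul hz, det_mul, norm_mul, Pi.add_apply]
  rw [Real.log_mul (norm_ne_zero_iff.2 (det_bk_ne hz)) (norm_ne_zero_iff.2 (det_bk_ne hw)), add_div]

theorem nu_one : nu G 1 = 0 := by funext i; simp [nu, bk_one]

theorem nu_inv (hz : z ∈ Zc G) : nu G z⁻¹ = -nu G z := by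
  rw [eq_neg_iff_add_eq_zero, ← nu_mul ((Zc G).inv_mem hz) hz, inv_mul_cancel, nu_one]

theorem tor_mem_Zc {y : Fin n → ℤ} (hy : y ∈ Y G) (t : kˣ) : tor y t ∈ Zc G :=
  mem_Zc.2 ⟨hy t, fun _ _ => tor_mem_Lgl _ _ _⟩

theorem nu_tor {y : Fin n → ℤ} (hy : y ∈ Y G) (t : kˣ) (i : Fin n) :
    nu G (tor y t) i = y i * Real.log ‖(t : k)‖ := by
  have : bk G i (tor y t).val = diagonal fun _ => (t : k) ^ y i := by
    ext a b
    simp only [bk, tor_val, of_apply, diagonal_apply, Subtype.ext_iff, a.2 y hy]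
  rw [nu, this, det_diagonal, Finset.prod_const, norm_pow, Real.log_pow, norm_zpow, Real.log_zpow,
    Finset.card_univ, mul_div_cancel_left₀ _ card_bk]

theorem continuousOn_nu (i : Fin n) : ContinuousOn (fun z => nu G z i) (Zc G) := by
  refine ContinuousOn.div_const (ContinuousOn.log (Continuous.continuousOn ?_)
    fun z hz => norm_ne_zero_iff.2 (det_bk_ne hz)) _
  exact (Continuous.matrix_det (continuous_matrix fun a b => cont_entry _ _)).norm

/-- the kernel of `nu` -/
def Z0 (G : Subgroup (GL (Fin n) k)) : Subgroup (GL (Fin n) k) where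
  carrier := {z | z ∈ Zc G ∧ nu G z = 0}
  mul_mem' := fun ha hb => ⟨(Zc G).mul_mem ha.1 hb.1, by rw [nu_mul ha.1 hb.1, ha.2, hb.2, add_zero]⟩
  one_mem' := ⟨(Zc G).one_mem, nu_one⟩
  inv_mem' := fun ha => ⟨(Zc G).inv_mem ha.1, by rw [nu_inv ha.1, ha.2, neg_zero]⟩

theorem mem_Z0 : z ∈ Z0 G ↔ z ∈ Zc G ∧ nu G z = 0 := Iff.rfl

variable {K : Type} [NormedField K] [NormedAlgebra k K]

theorem eig_of_root (hz : z ∈ Zc G) {c : K}
    (hc : ((bk G i z).map (algebraMap k K)).charpoly.IsRoot c) : Eig {j | Sim G i j} z.val c := by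
  rw [Polynomial.IsRoot, eval_charpoly] at hc
  obtain ⟨v, h0, hv⟩ := exists_mulVec_eq_zero_iff.2 hc
  refine ⟨fun j => if h : Sim G i j then v ⟨j, h⟩ else 0, fun e => h0 (funext fun a => ?_),
    fun j hj => dif_neg hj, funext fun a => ?_⟩
  · simpa [a.2] using congrFun e a
  · rw [mulVec, dotProduct, sum_bk (G := G) (i := i) _ fun j hj =>
      not_not.1 fun e => right_ne_zero_of_mul hj (dif_neg e)]
    by_cases h : Sim G i a
    · have := congrFun hv ⟨a, h⟩
      rw [sub_mulVec, Pi.sub_apply, Pi.zero_apply, sub_eq_zero, scalar_apply, mulVec_diagonal] at this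
      simp only [Subtype.prop, h, dif_pos, Pi.smul_apply, smul_eq_mul]
      exact this.symm
    · simp only [h, Pi.smul_apply, dif_neg, not_false_iff, smul_zero]
      refine Finset.sum_eq_zero fun b _ => ?_
      rw [map_apply, not_not.1 (mt (sim_of_ne hz) fun e => h fun y hy =>
        (b.2 y hy).trans (e y hy).symm), map_zero, zero_mul]

theorem eig_ne {A : Set (Fin n)} {c : K} (hz : Eig A z.val c) : c ≠ 0 := by
  obtain ⟨v, h0, -, hv⟩ := hz
  rintro rfl
  have := congrArg (z⁻¹.val.map (algebraMap k K) *ᵥ ·) hv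
  simp only [mulVec_mulVec, ← Matrix.map_mul, Units.inv_mul, zero_smul, mulVec_zero] at this
  exact h0 (by simpa using this)

theorem eig_bk (hz : z ∈ Zc G) {c : K} (h : Eig Set.univ z.val c) :
    ∃ i, Eig {j | Sim G i j} z.val c := by
  obtain ⟨v, h0, -, hv⟩ := h
  obtain ⟨i, hi⟩ := Function.ne_iff.1 h0
  refine ⟨i, fun j => if Sim G i j then v j else 0, fun e => hi ?_, fun j hj => if_neg hj,
    funext fun a => ?_⟩
  · simpa [sim_refl] using congrFun e i
  · have h1 : ∀ j, z.val.map (algebraMap k K) a j * (if Sim G i j then v j else 0) =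
        if Sim G i a then z.val.map (algebraMap k K) a j * v j else 0 := fun j => by
      by_cases e : z.val a j = 0
      · simp [e]
      · have := sim_of_ne hz e
        rw [show Sim G i j = Sim G i a from propext ⟨fun h y hy => (h y hy).trans (this y hy).symm,
          fun h y hy => (h y hy).trans (this y hy)⟩, mul_ite, mul_zero]
    have := congrFun hv a
    simp only [mulVec, dotProduct, h1, Finset.sum_ite_irrel, Finset.sum_const_zero, Pi.smul_apply,
      smul_ite, smul_zero] at this ⊢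
    rw [this]

variable [IsAlgClosed K]

theorem nu_eq (hz : z ∈ Zc G) {a : ℝ} (h : ∀ c : K, Eig {j | Sim G i j} z.val c → Real.log ‖c‖ = a) :
    nu G z i = a := by
  have h1 := det_eq_prod_roots_charpoly ((bk G i z).map (algebraMap k K))
  have h2 := (IsAlgClosed.splits ((bk G i z).map (algebraMap k K)).charpoly).natDegree_eq_card_roots
  have h3 := fun c (hc : c ∈ ((bk G i z).map (algebraMap k K)).charpoly.roots) =>
    eig_of_root hz (Polynomial.isRoot_of_mem_roots hc)
  rw [charpoly_natDegree_eq_dim] at h2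
  rw [nu, div_eq_iff card_bk, ← norm_algebraMap' K, RingHom.map_det, RingHom.mapMatrix_apply, h1, h2]
  generalize ((bk G i z).map (algebraMap k K)).charpoly.roots = s at h3
  induction s using Multiset.induction_on with
  | empty => simp
  | cons c s ih =>
    rw [Multiset.prod_cons, norm_mul, Real.log_mul (norm_ne_zero_iff.2 (eig_ne (h3 c (by simp))))
      (norm_ne_zero_iff.2 (Multiset.prod_ne_zero fun e => eig_ne (h3 0 (by simp [e])) rfl)),
      ih fun b hb => h3 b (by simp [hb]), h c (h3 c (by simp)), Multiset.card_cons]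
    push_cast; ring

theorem nu_mem (h : Max K G) (hz : z ∈ Zc G) : nu G z ∈ YR G := by
  obtain ⟨ν, h1, h2⟩ := h z hz
  rwa [show nu G z = ν from funext fun i => nu_eq hz (h2 i)]

theorem nu_eig (h : Max K G) (hz : z ∈ Zc G) {c : K} (hc : Eig {j | Sim G i j} z.val c) :
    Real.log ‖c‖ = nu G z i := by
  obtain ⟨ν, -, h2⟩ := h z hz
  rw [nu_eq hz (h2 i), h2 i c hc]

theorem mem_Z0_iff (h : Max K G) : z ∈ Z0 G ↔ z ∈ Zc G ∧ Ell K z.val := by
  refine and_congr_right fun hz =>
    ⟨fun e c hc => ?_, fun e => funext fun i => nu_eq (K := K) hz fun c hc => ?_⟩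
  · obtain ⟨i, hi⟩ := eig_bk hz hc
    exact Real.eq_one_of_pos_of_log_eq_zero (norm_pos_iff.2 (eig_ne hc)) (by
      rw [nu_eig h hz hi, e, Pi.zero_apply])
  · obtain ⟨v, h0, -, hv⟩ := hc
    rw [e c ⟨v, h0, fun j hj => (hj trivial).elim, hv⟩, Real.log_one, Pi.zero_apply]

end Vale.Agent.P092TO
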