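import Vale.Agent.P092TO.Nu
import Vale.Agent.P092A2.Ell

/-!
P092, group side (helper11): block B1.
-/

set_option linter.all false

open Matrix Vale.Agent.P092AG

namespace Vale.Agent.P092TO

variable {n : ℕ} {k : Type} [NontriviallyNormedField k] [ProperSpace k] (K : Type) [NormedField K]
  [NormedAlgebra k K] [IsAlgClosed K] {G : Subgroup (GL (Fin n) k)} {𝔤 : Submodule k (Mt n k)}

theorem Y_ne_bot (hn : Nice G 𝔤) (hs : Simp G) (hm : Max K G)
    (hc : ¬ IsCompact (G : Set (GL (Fin n) k))) : Y G ≠ ⊥ := fun hY => by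
  obtain ⟨r, hr⟩ := P092A2.bdd_of_ell hn hs fun x hx => ell_of_max K hm hY hx
  exact hc (isCompact_of_bdd hn.closed.isClosed hn.det1 hr)

omit [ProperSpace k] in
theorem isCompact_cj (c : GL (Fin n) k) :
    IsCompact (cj c G : Set (GL (Fin n) k)) ↔ IsCompact (G : Set (GL (Fin n) k)) := by
  have key : ∀ (c : GL (Fin n) k) (G : Subgroup (GL (Fin n) k)),
      IsCompact (G : Set (GL (Fin n) k)) → IsCompact (cj c G : Set (GL (Fin n) k)) := fun c G h =>
    h.image (f := fun g => c * g * c⁻¹) (by fun_prop)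
  exact ⟨fun h => by simpa only [cj_cj, inv_mul_cancel, cj_one] using key c⁻¹ _ h, key c G⟩

/-- a conjugate of the group has a nontrivial maximal split diagonal torus -/
theorem b1 [Algebra.IsAlgebraic k K] (hn : Nice G 𝔤) (hs : Simp G)
    (hc : ¬ IsCompact (G : Set (GL (Fin n) k))) :
    ∃ c 𝔤', Nice (cj c G) 𝔤' ∧ Simp (cj c G) ∧ Max K (cj c G) ∧ Y (cj c G) ≠ ⊥ := by
  obtain ⟨c, h⟩ := exists_max K hn.closed
  exact ⟨c, _, nice_cj hn c, simp_cj hs c, h,
    Y_ne_bot K (nice_cj hn c) (simp_cj hs c) h (mt (isCompact_cj c).1 hc)⟩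

end Vale.Agent.P092TO
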