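import Mathlib.RepresentationTheory.AlgebraRepresentation.Basic
import Mathlib.RingTheory.SimpleModule.Basic
import Mathlib.LinearAlgebra.Eigenspace.Charpoly
import Mathlib.Analysis.Normed.Module.FiniteDimension

/-!
P092, group side (helper11): Burnside's theorem and the Burnside bound.
-/

set_option linter.all false

open Module

namespace Vale.Agent.P092TO

/-- Burnside's theorem -/
theorem burnside {K V Z : Type*} [Field K] [IsAlgClosed K] [AddCommGroup V] [Module K V]
    [FiniteDimensional K V] [Monoid Z] (ρ : Z →* End K V)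
    (hirr : ∀ W : Submodule K V, (∀ g, ∀ v ∈ W, ρ g v ∈ W) → W = ⊥ ∨ W = ⊤) :
    Submodule.span K (Set.range ρ) = ⊤ := by
  classical
  rcases subsingleton_or_nontrivial V with hV | hV
  · exact eq_top_iff.2 fun T _ => by rw [Subsingleton.elim T 0]; exact zero_mem _
  obtain ⟨A, hA⟩ : ∃ A, A = Algebra.adjoin K (Set.range ρ) := ⟨_, rfl⟩
  have hρA : ∀ g, ρ g ∈ A := fun g => hA ▸ Algebra.subset_adjoin ⟨g, rfl⟩
  have hsimple : IsSimpleModule A V := by
    rw [isSimpleModule_iff]
    refine { exists_pair_ne := ⟨⊥, ⊤, bot_ne_top⟩, eq_bot_or_eq_top := fun N => ?_ }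
    exact (hirr (N.restrictScalars K) fun g v hv => N.smul_mem (⟨_, hρA g⟩ : A) hv).imp
      (Submodule.restrictScalars_eq_bot_iff _ _ _).1 (Submodule.restrictScalars_eq_top_iff _ _ _).1
  have htop : A = ⊤ := by
    refine eq_top_iff.2 fun T _ => ?_
    obtain ⟨F, hF⟩ : ∃ F : End (End A V) V, ∀ v, F v = T v :=
      ⟨{ toFun := fun v => T v
         map_add' := fun u v => map_add T u v
         map_smul' := fun f v => by
          obtain ⟨c, rfl⟩ := (IsSimpleModule.algebraMap_end_bijective_of_isAlgClosed K).2 f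
          exact map_smul T c v }, fun v => rfl⟩
    obtain ⟨a, ha⟩ := jacobson_density F (Finset.univ.image fun i => finBasis K V i)
    have h1 : T = (a : End K V) := (finBasis K V).ext fun i => by
      rw [← hF, ha _ (Finset.mem_image_of_mem _ (Finset.mem_univ i))]; rfl
    exact h1 ▸ a.2
  have h3 := Algebra.adjoin_eq_span K (Set.range ρ)
  rw [← MonoidHom.coe_mrange, Submonoid.closure_eq, MonoidHom.coe_mrange, ← hA, htop] at h3
  exact h3.symm

theorem norm_trace_le {K V : Type*} [NormedField K] [IsAlgClosed K] [AddCommGroup V] [Module K V]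
    [FiniteDimensional K V] (f : End K V) {c : ℝ} (h : ∀ a, f.HasEigenvalue a → ‖a‖ ≤ c) :
    ‖LinearMap.trace K V f‖ ≤ finrank K V * c := by
  rw [End.trace_eq_sum_roots_charpoly_of_splits (IsAlgClosed.splits _), ← f.charpoly_natDegree,
    (IsAlgClosed.splits _).natDegree_eq_card_roots, ← nsmul_eq_mul]
  refine (norm_multiset_sum_le _).trans ?_
  rw [← Multiset.card_map fun x : K => ‖x‖]
  refine Multiset.sum_le_card_nsmul _ _ fun x hx => ?_
  obtain ⟨a, ha, rfl⟩ := Multiset.mem_map.1 hx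
  exact h a ((End.hasEigenvalue_iff_isRoot_charpoly _ _).2 (Polynomial.isRoot_of_mem_roots ha))

/-- the Burnside bound: the matrix coefficients of an irreducible representation are bounded by any
submultiplicative bound for the eigenvalues -/
theorem bl {K V Z : Type*} [NormedField K] [IsAlgClosed K] [AddCommGroup V] [Module K V]
    [FiniteDimensional K V] [Monoid Z] (ρ : Z →* End K V)
    (hirr : ∀ W : Submodule K V, (∀ g, ∀ v ∈ W, ρ g v ∈ W) → W = ⊥ ∨ W = ⊤) (c : Z → ℝ)
    (h0 : ∀ z, 0 ≤ c z) (hc : ∀ z w, c (z * w) ≤ c z * c w)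
    (he : ∀ z a, (ρ z).HasEigenvalue a → ‖a‖ ≤ c z) (φ : V →ₗ[K] K) (v : V) :
    ∃ C : ℝ, 0 ≤ C ∧ ∀ z, ‖φ (ρ z v)‖ ≤ C * c z := by
  have key : ∀ S ∈ Submodule.span K (Set.range ρ),
      ∃ C : ℝ, 0 ≤ C ∧ ∀ z, ‖LinearMap.trace K V (ρ z * S)‖ ≤ C * c z := by
    intro S hS
    induction hS using Submodule.span_induction with
    | mem S hS =>
      obtain ⟨w, rfl⟩ := hS
      refine ⟨finrank K V * c w, mul_nonneg (Nat.cast_nonneg _) (h0 w), fun z => ?_⟩
      rw [← map_mul, mul_assoc, mul_comm (c w)]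
      exact (norm_trace_le _ (he _)).trans (mul_le_mul_of_nonneg_left (hc z w) (Nat.cast_nonneg _))
    | zero => exact ⟨0, le_rfl, fun z => by simp⟩
    | add S S' _ _ h h' =>
      obtain ⟨C, hC, h⟩ := h
      obtain ⟨C', hC', h'⟩ := h'
      refine ⟨C + C', add_nonneg hC hC', fun z => ?_⟩
      rw [mul_add, map_add, add_mul]
      exact norm_add_le_of_le (h z) (h' z)
    | smul a S _ h =>
      obtain ⟨C, hC, h⟩ := h
      refine ⟨‖a‖ * C, mul_nonneg (norm_nonneg _) hC, fun z => ?_⟩
      rw [mul_smul_comm, map_smul, norm_smul, mul_assoc]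
      exact mul_le_mul_of_nonneg_left (h z) (norm_nonneg _)
  obtain ⟨C, hC, h⟩ := key (φ.smulRight v) (burnside ρ hirr ▸ Submodule.mem_top)
  refine ⟨C, hC, fun z => ?_⟩
  have e : ρ z * φ.smulRight v = φ.smulRight (ρ z v) := by ext x; simp
  simpa only [e, LinearMap.trace_smulRight] using h z

end Vale.Agent.P092TO
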