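import Vale.Agent.P092TO.Proj
import Vale.Agent.P092AG.Basic
import Mathlib.Analysis.Analytic.Linear
import Mathlib.Analysis.Analytic.Composition
import Mathlib.Analysis.Calculus.FDeriv.Comp
import Mathlib.Analysis.Calculus.FDeriv.Linear

/-!
P092, group side (helper11): conjugate groups, existence of a maximal split torus.
-/

set_option linter.all false

open Module Matrix Filter Topology Vale.Agent.P092AG
open scoped Matrix.Norms.Elementwise

namespace Vale.Agent.P092TO

section Alg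

variable {n : ℕ} {R : Type} [Field R] {G : Subgroup (GL (Fin n) R)} {c g : GL (Fin n) R}

/-- the conjugate group -/
abbrev cj (c : GL (Fin n) R) (G : Subgroup (GL (Fin n) R)) : Subgroup (GL (Fin n) R) :=
  G.map (MulAut.conj c).toMonoidHom

theorem mem_cj : g ∈ cj c G ↔ c⁻¹ * g * c ∈ G := by
  simpa using Subgroup.mem_map_equiv (f := MulAut.conj c) (K := G) (x := g)

theorem conj_mem_cj : c * g * c⁻¹ ∈ cj c G ↔ g ∈ G := by simp [mem_cj, mul_assoc]

theorem cj_cj (c d : GL (Fin n) R) : cj c (cj d G) = cj (c * d) G := by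
  ext g; simp only [mem_cj, _root_.mul_inv_rev, mul_assoc]

theorem cj_one : cj 1 G = G := by ext g; simp [mem_cj]

/-- the substitution `x ↦ a x b` -/
noncomputable def lr (a b : Mt n R) : Pl n R →ₐ[R] Pl n R := MvPolynomial.aeval fun ij =>
  ∑ v, (∑ u, MvPolynomial.C (a ij.1 u) * MvPolynomial.X (u, v)) * MvPolynomial.C (b v ij.2)

theorem ev_lr (a b x : Mt n R) (p : Pl n R) : ev x (lr a b p) = ev (a * x * b) p := by
  refine DFunLike.congr_fun (?_ : (ev x).comp (lr a b).toRingHom = _) p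
  refine MvPolynomial.ringHom_ext (fun r => ?_) fun ij => ?_ <;> simp [lr, ev, mul_apply]

theorem mem_van_cj {p : Pl n R} :
    p ∈ van (cj c G : Set (GL (Fin n) R)) ↔ lr c.val c⁻¹.val p ∈ van (G : Set (GL (Fin n) R)) := by
  simp only [mem_van, ev_lr, ← Units.val_mul]
  exact ⟨fun h g hg => h _ (conj_mem_cj.2 hg), by rintro h _ ⟨g, hg, rfl⟩; exact h g hg⟩

theorem zcl_cj (h : ZCl (G : Set (GL (Fin n) R))) (c : GL (Fin n) R) :
    ZCl (cj c G : Set (GL (Fin n) R)) := fun g hg => mem_cj.2 (h _ fun p hp => by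
  have := hg (lr c⁻¹.val c.val p) fun x hx => by
    rw [ev_lr, ← Units.val_mul, ← Units.val_mul]; exact hp _ (mem_cj.1 hx)
  rwa [ev_lr, ← Units.val_mul, ← Units.val_mul] at this)

theorem mem_cj' {x : Mt n R} : Mem (cj c G) x ↔ Mem G (c⁻¹.val * x * c.val) := by
  constructor
  · rintro ⟨g, hg, rfl⟩; exact ⟨_, mem_cj.1 hg, rfl⟩
  · rintro ⟨g, hg, e⟩
    refine ⟨_, conj_mem_cj.2 hg, ?_⟩
    simp only [Units.val_mul, e, ← mul_assoc, Units.mul_inv, one_mul, Units.mul_inv_cancel_right]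

/-- the real span of the cocharacters -/
def YR (G : Subgroup (GL (Fin n) R)) : Submodule ℝ (Fin n → ℝ) :=
  Submodule.span ℝ ((fun y i => ((y i : ℤ) : ℝ)) '' (Y G : Set (Fin n → ℤ)))

end Alg

variable {n : ℕ} {k : Type} [NontriviallyNormedField k] {G : Subgroup (GL (Fin n) k)}

/-- conjugation of matrices -/
noncomputable def ad (c : GL (Fin n) k) : Mt n k →L[k] Mt n k where
  toFun x := c.val * x * c⁻¹.val
  map_add' x y := by rw [mul_add, add_mul]
  map_smul' a x := by simp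
  cont := by fun_prop

theorem ad_apply (c : GL (Fin n) k) (x : Mt n k) : ad c x = c.val * x * c⁻¹.val := rfl

theorem ad_one (c : GL (Fin n) k) : ad c 1 = 1 := by simp [ad_apply]

theorem ad_ad (c : GL (Fin n) k) (x : Mt n k) : ad c (ad c⁻¹ x) = x := by
  simp only [ad_apply, inv_inv, ← mul_assoc, Units.mul_inv, one_mul, Units.mul_inv_cancel_right]

theorem tendsto_ad (c : GL (Fin n) k) : Tendsto (ad c) (𝓝 1) (𝓝 1) :=
  (ad c).continuous.tendsto' _ _ (ad_one c)

theorem chart_cj {𝔤 : Submodule k (Mt n k)} (h : Chart G 𝔤) (c : GL (Fin n) k) :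
    Chart (cj c G) (𝔤.comap (ad c⁻¹).toLinearMap) := by
  obtain ⟨θ, h1, h2, h3, h4⟩ := h
  rw [← ad_one c⁻¹] at h1 h3
  refine ⟨ad c ∘ θ ∘ ad c⁻¹, AnalyticAt.comp ((ad c).analyticAt _)
    (h1.comp ((ad c⁻¹).analyticAt 1)),
    by simp [ad_one, h2], ?_, ((tendsto_ad c⁻¹).eventually h4).mono fun x hx => ?_⟩
  · rw [← show ad c ∘L (ContinuousLinearMap.id k (Mt n k) ∘L ad c⁻¹) = ContinuousLinearMap.id k _
      from ContinuousLinearMap.ext (ad_ad c)]
    exact (ad c).hasFDerivAt.comp _ (h3.comp _ (ad c⁻¹).hasFDerivAt)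
  · rw [mem_cj', Submodule.mem_comap]
    refine hx.trans (iff_of_eq (congrArg (· ∈ 𝔤) ?_))
    exact (ad_ad c⁻¹ _).symm

theorem nice_cj {𝔤 : Submodule k (Mt n k)} (h : Nice G 𝔤) (c : GL (Fin n) k) :
    Nice (cj c G) (𝔤.comap (ad c⁻¹).toLinearMap) where
  det1 := by
    rintro _ ⟨g, hg, rfl⟩
    exact (det_units_conj c _).trans (h.det1 g hg)
  closed := zcl_cj h.closed c
  prime := by
    have := h.prime
    rw [show van (cj c G : Set (GL (Fin n) k)) = (van (G : Set (GL (Fin n) k))).comap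
      (lr c.val c⁻¹.val) from Ideal.ext fun _ => mem_van_cj]
    infer_instance
  dense p hp := mem_van_cj.2 (h.dense _ (((tendsto_ad c).eventually hp).mono fun x hx hm => by
    rw [ev_lr]
    refine hx (mem_cj'.2 ?_)
    rwa [show c⁻¹.val * ad c x * c.val = x from ad_ad c⁻¹ x]))
  chart := chart_cj h.chart c

theorem simp_cj (h : Simp G) (c : GL (Fin n) k) : Simp (cj c G) where
  ncomm := by
    obtain ⟨g, hg, g', hg', e⟩ := h.ncomm
    exact ⟨_, ⟨g, hg, rfl⟩, _, ⟨g', hg', rfl⟩, fun e' => e ((MulAut.conj c).injective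
      ((map_mul _ _ _).trans (e'.trans (map_mul _ _ _).symm)))⟩
  norm N hN hn := by
    have e : N = cj c (cj c⁻¹ N) := by rw [cj_cj, mul_inv_cancel, cj_one]
    have ht : Tendsto (fun g : GL (Fin n) k => c * g * c⁻¹) (𝓝 1) (𝓝 1) :=
      Continuous.tendsto' (by fun_prop) _ _ (by simp)
    refine (h.norm (cj c⁻¹ N) (fun x hx => conj_mem_cj.1 (hN (by simpa using mem_cj.1 hx)))
      ((ht.eventually hn).mono fun g hg hG x hx => mem_cj.2 ?_)).imp (fun hf => ?_) fun hv p hp => ?_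
    · simpa [mul_assoc] using hg (conj_mem_cj.2 hG) _ (mem_cj.1 hx)
    · rw [e]; exact hf.image _
    · rw [e] at hp; exact mem_van_cj.2 (hv (mem_van_cj.1 hp))
  prop m ρ hρ h1 r := by
    let f := ((MulAut.conj c).subgroupMap G)
    obtain ⟨r', hr⟩ := h.prop m (ρ.comp f.toMonoidHom) (fun i j => (hρ i j).elim fun p hp =>
      ⟨lr c.val c⁻¹.val p, fun g => by rw [ev_lr]; exact hp _⟩)
      (h1.elim fun g hg => ⟨f.symm g, (f.apply_symm_apply g ▸ hg :)⟩) r
    obtain ⟨C, hC, h4⟩ := SemilinearMapClass.bound_of_continuous (ad c).toLinearMap (ad c).continuous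
    refine ⟨C * r', fun g h2 h3 => ?_⟩
    obtain ⟨g, rfl⟩ := f.surjective g
    exact (h4 _).trans (mul_le_mul_of_nonneg_left (hr g h2 (map_inv f g ▸ h3 :)) hC.le)

variable (K : Type) [NormedField K] [NormedAlgebra k K]

/-- without cocharacters all the elements are elliptic -/
theorem ell_of_max (h : Max K G) (hY : Y G = ⊥) {g : GL (Fin n) k} (hg : g ∈ G) :
    Ell K (g : Mt n k) := by
  rintro a ⟨v, h0, -, hv⟩
  have hs : ∀ i j, Sim G i j := fun i j y hy => by rw [hY] at hy; rw [hy]; rfl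
  obtain ⟨ν, hν, h1⟩ := h g (mem_Zc.2 ⟨hg, fun y hy i j e => (e (hs i j y hy)).elim⟩)
  obtain ⟨i, -⟩ := Function.ne_iff.1 h0
  have h2 := h1 i a ⟨v, h0, fun j hj => (hj (hs i j)).elim, hv⟩
  have h3 : ν = 0 := by
    rw [hY, AddSubgroup.coe_bot, Set.image_singleton] at hν
    obtain ⟨b, rfl⟩ := Submodule.mem_span_singleton.1 hν
    ext; simp
  refine Real.eq_one_of_pos_of_log_eq_zero (norm_pos_iff.2 ?_) (h2.trans (by simp [h3]))
  rintro rfl
  have := congrArg (g⁻¹.val.map (algebraMap k K) *ᵥ ·) hv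
  simp only [mulVec_mulVec, ← Matrix.map_mul, Units.inv_mul, zero_smul, mulVec_zero] at this
  exact h0 (by simpa using this)

variable [CompleteSpace k] [IsAlgClosed K] [Algebra.IsAlgebraic k K]

/-- a torus of maximal rank is a maximal split torus -/
theorem max_of_rank (hG : ZCl (G : Set (GL (Fin n) k)))
    (h : ∀ c, finrank ℝ (YR (cj c G)) ≤ finrank ℝ (YR G)) : Max K G := by
  intro z hz
  rw [mem_Zc] at hz
  obtain ⟨c, a, h1, h2, h3⟩ := hyp K hG hz.1
  have h4 : YR G = YR (cj c⁻¹ G) := Submodule.eq_of_le_of_finrank_le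
    (Submodule.span_mono (Set.image_mono fun y hy t => mem_cj.2 (by
      rw [inv_inv, ← comm_tor (h1 y (hz.2 y hy)), mul_inv_cancel_right]; exact hy t))) (h _)
  have h5 : a ∈ YR G := by
    rw [h4]
    refine Submodule.span_mono (Set.image_mono ?_) h3
    exact fun y hy t => mem_cj.2 (hy t)
  refine ⟨a, h5, ?_⟩
  rintro i α ⟨v, h0, h6, hv⟩
  have h7 : c⁻¹.val.map (algebraMap k K) *ᵥ v ≠ 0 := fun e => by
    have := congrArg (c.val.map (algebraMap k K) *ᵥ ·) e
    simp only [mulVec_mulVec, ← Matrix.map_mul, Units.mul_inv, mulVec_zero] at this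
    exact h0 (by simpa using this)
  obtain ⟨j, hj⟩ := Function.ne_iff.1 h7
  rw [h2 v α hv j hj]
  obtain ⟨l, -, hl⟩ := Finset.exists_ne_zero_of_sum_ne_zero
    (show ∑ l, c⁻¹.val.map (algebraMap k K) j l * v l ≠ 0 from hj)
  have h8 : ∀ y ∈ Y G, y j = y i := fun y hy => by
    have h9 : y i = y l := (not_not.1 (mt (h6 l) (right_ne_zero_of_mul hl)) : Sim G i l) y hy
    by_contra e
    refine left_ne_zero_of_mul hl ?_
    rw [map_apply, (Lgl y).inv_mem (h1 y (hz.2 y hy)) j l (h9 ▸ e), map_zero]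
  refine Submodule.span_induction (p := fun x _ => x j = x i) ?_ rfl
    (fun x y _ _ e e' => by simp [e, e']) (fun b x _ e => by simp [e]) h5
  rintro _ ⟨y, hy, rfl⟩
  exact congrArg Int.cast (h8 y hy)

/-- B1: a conjugate of a closed group has a maximal split diagonal torus -/
theorem exists_max (hG : ZCl (G : Set (GL (Fin n) k))) : ∃ c, Max K (cj c G) := by
  have hb : BddAbove (Set.range fun c => finrank ℝ (YR (cj c G))) :=
    ⟨_, by rintro _ ⟨c, rfl⟩; exact Submodule.finrank_le _⟩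
  obtain ⟨c, hc⟩ := Nat.sSup_mem (Set.range_nonempty _) hb
  refine ⟨c, max_of_rank K (zcl_cj hG c) fun d => ?_⟩
  rw [cj_cj]
  exact (le_csSup hb (Set.mem_range_self _)).trans hc.ge

end Vale.Agent.P092TO
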