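import Mathlib.FieldTheory.IsAlgClosed.Basic
import Mathlib.LinearAlgebra.DFinsupp
import Mathlib.Algebra.MvPolynomial.Eval

/-!
P092, group side (helper11): sums of generalised eigenspaces, the graded algebra of an endomorphism.
-/

set_option linter.all false

open Module Polynomial

namespace Vale.Agent.P092TO

variable {K V V' A : Type} [Field K] [AddCommGroup V] [Module K V] [AddCommGroup V'] [Module K V']
  [CommRing A] [Algebra K A] {P Q R : K → Prop}

/-- the vector is in the sum of the generalised eigenspaces of the eigenvalues satisfying `P` -/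
inductive In (T : End K V) (P : K → Prop) : V → Prop
  | zero : In T P 0
  | step (a : K) (x : V) : P a → In T P (T x - a • x) → In T P x

variable {T : End K V} {x y : V}

theorem In.map {T' : End K V'} (h : In T P x) (L : V →ₗ[K] V') (hL : ∀ x, L (T x) = T' (L x)) :
    In T' P (L x) := by
  induction h with
  | zero => rw [map_zero]; exact .zero
  | step a x ha _ ih => exact .step a _ ha (by rwa [← hL, ← map_smul, ← map_sub])

theorem In.mono (h : In T P x) (hP : ∀ a, P a → Q a) : In T Q x := by
  induction h with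
  | zero => exact .zero
  | step a x ha _ ih => exact .step a _ (hP a ha) ih

theorem In.sub (h : In T P x) (a : K) : In T P (T x - a • x) :=
  h.map (T - a • LinearMap.id) fun x => by simp

theorem In.smul (h : In T P x) (a : K) : In T P (a • x) :=
  h.map (a • LinearMap.id) fun x => by simp

theorem In.add (h : In T P x) : ∀ {y}, In T P y → In T P (x + y) := by
  induction h with
  | zero => intro y hy; rwa [zero_add]
  | step a x ha _ ih =>
    intro y hy
    refine .step a _ ha ?_
    rw [map_add, smul_add, add_sub_add_comm]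
    exact ih (hy.sub a)

theorem In.eig (h : In T P x) {a : K} (ha : ¬ P a) (e : T x = a • x) : x = 0 := by
  induction h with
  | zero => rfl
  | step b x hb _ ih =>
    have := ih (by rw [map_sub, map_smul, e, map_smul, e, smul_sub, smul_comm a b])
    rw [e, ← sub_smul, smul_eq_zero, sub_eq_zero] at this
    exact this.resolve_left fun e => ha (e ▸ hb)

theorem In.disj (h : In T P x) (h' : In T Q x) (hP : ∀ a, P a → ¬ Q a) : x = 0 := by
  induction h with
  | zero => rfl
  | step a x ha _ ih => exact h'.eig (hP a ha) (sub_eq_zero.1 (ih (h'.sub a)))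

/-- the subspace -/
def sp (T : End K V) (P : K → Prop) : Submodule K V where
  carrier := {x | In T P x}
  add_mem' := fun h h' => In.add h h'
  zero_mem' := .zero
  smul_mem' := fun a _ h => In.smul h a

theorem In.of_poly [IsAlgClosed K] {q : K[X]} (hq : q ≠ 0) (hr : ∀ a, q.IsRoot a → P a)
    (h : aeval T q x = 0) : In T P x := by
  have key : ∀ s : Multiset K, (∀ a ∈ s, P a) → ∀ x, aeval T (s.map (X - C ·)).prod x = 0 →
      In T P x := by
    intro s
    induction s using Multiset.induction_on with
    | empty => intro _ x h; rw [show x = 0 by simpa using h]; exact .zero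
    | cons a s ih =>
      intro hs x h
      refine .step a x (hs a (by simp)) (ih (fun b hb => hs b (by simp [hb])) _ ?_)
      rw [Multiset.map_cons, Multiset.prod_cons, mul_comm, map_mul] at h
      simpa using h
  refine key q.roots (fun a ha => hr a (isRoot_of_mem_roots ha)) x ?_
  rw [(IsAlgClosed.splits q).eq_prod_roots, map_mul, aeval_C] at h
  simpa [hq] using h

theorem In.mul {T : End K A} (hT : ∀ x y, T (x * y) = T x * T y)
    (hR : ∀ a b, P a → Q b → R (a * b)) {x : A} (h : In T P x) :
    ∀ {y}, In T Q y → In T R (x * y) := by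
  induction h with
  | zero => intro y _; rw [zero_mul]; exact .zero
  | step a x ha _ ih =>
    intro y hy
    induction hy with
    | zero => rw [mul_zero]; exact .zero
    | step b y hb hy ih' =>
      refine .step (a * b) _ (hR a b ha hb) ?_
      have e : T (x * y) - (a * b) • (x * y) = (T x - a • x) * T y + a • (x * (T y - b • y)) := by
        simp only [hT, Algebra.smul_def, map_mul]; ring
      rw [e]
      exact (ih ((In.step b y hb hy).map T fun _ => rfl)).add (ih'.smul a)

/-- a polynomial relation passes to the twisted point -/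
theorem core {Λ σ ι : Type} [AddMonoid Λ] [Fintype ι] {T : End K A}
    (hT : ∀ x y, T (x * y) = T x * T y) (h1 : T 1 = 1)
    (P : Λ → K → Prop) (hP1 : P 0 1) (hPm : ∀ l m a b, P l a → P m b → P (l + m) (a * b))
    (hPi : ∀ l m a, P l a → P m a → l = m) (χ : Λ → K) (hχ1 : χ 0 = 1)
    (hχ : ∀ l m, χ (l + m) = χ l * χ m) (e : A →ₐ[K] K) (l : ι → Λ) (x : σ → ι → A)
    (hx : ∀ v i, In T (P (l i)) (x v i)) (p : MvPolynomial σ K)
    (hp : MvPolynomial.aeval (fun v => ∑ i, x v i) p = 0) :
    MvPolynomial.eval (fun v => ∑ i, χ (l i) * e (x v i)) p = 0 := by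
  classical
  let D : Λ → Submodule K (A × K) := fun l =>
    (sp T (P l)).map (LinearMap.id.prod (χ l • e.toLinearMap))
  have hD : ∀ l x, In T (P l) x → (x, χ l * e x) ∈ ⨆ l, D l := fun l x h =>
    Submodule.mem_iSup_of_mem l ⟨x, h, rfl⟩
  have hm : ∀ u ∈ ⨆ l, D l, ∀ w ∈ ⨆ l, D l, u * w ∈ ⨆ l, D l := by
    intro u hu w hw
    refine Submodule.iSup_induction D (motive := fun u => u * w ∈ ⨆ l, D l) hu ?_ (by simp)
      fun a b ha hb => add_mul a b w ▸ add_mem ha hb
    rintro l _ ⟨a, ha, rfl⟩
    refine Submodule.iSup_induction D (motive := fun w => (a, χ l * e a) * w ∈ ⨆ l, D l) hw ?_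
      (by simp) fun a b ha hb => by rw [mul_add]; exact add_mem ha hb
    rintro m _ ⟨b, hb, rfl⟩
    convert hD (l + m) _ (In.mul hT (hPm l m) ha hb) using 1
    simp [hχ]; ring
  have key : ∀ p : MvPolynomial σ K, (MvPolynomial.aeval (fun v => ∑ i, x v i) p,
      MvPolynomial.eval (fun v => ∑ i, χ (l i) * e (x v i)) p) ∈ ⨆ l, D l := by
    intro p
    induction p using MvPolynomial.induction_on with
    | C a =>
      convert hD 0 _ ((In.step 1 1 hP1 (by rw [h1, one_smul, sub_self]; exact .zero)).smul a) using 1
      simp [hχ1, Algebra.smul_def]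
    | add p q hp hq => simpa only [map_add, Prod.mk_add_mk] using add_mem hp hq
    | mul_X p v hp =>
      have := hm _ hp _ (sum_mem fun i (_ : i ∈ Finset.univ) => hD _ _ (hx v i))
      rw [← prod_mk_sum] at this
      simpa only [map_mul, MvPolynomial.aeval_X, MvPolynomial.eval_X, Prod.mk_mul_mk] using this
  obtain ⟨f, hf, e1⟩ := (Submodule.mem_iSup_iff_exists_finsupp _ _).1 (key p)
  rw [hp, Finsupp.sum, Prod.ext_iff, Prod.fst_sum, Prod.snd_sum] at e1
  refine e1.2.symm.trans (Finset.sum_eq_zero fun m hm => ?_)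
  obtain ⟨a, ha, ea⟩ := hf m
  have h3 : In T (fun c => ∃ m' ≠ m, P m' c) (∑ j ∈ f.support.erase m, (f j).1) :=
    (sp T _).sum_mem fun j hj => by
      obtain ⟨b, hb, eb⟩ := hf j
      rw [← eb]
      exact In.mono hb fun c hc => ⟨j, Finset.ne_of_mem_erase hj, hc⟩
  have h4 := e1.1
  rw [← Finset.add_sum_erase _ _ hm, add_eq_zero_iff_eq_neg, ← ea] at h4
  rw [← neg_one_smul K] at h4
  have h5 : a = 0 := In.disj ha ((show a = _ from h4) ▸ h3.smul _) fun c hc ⟨m', h6, h7⟩ =>
    h6 (hPi _ _ _ h7 hc)
  rw [← ea, h5, map_zero, Prod.snd_zero]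

end Vale.Agent.P092TO
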